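import Vale.Agent.P144Y.K.KW
import Vale.Agent.P144Y.G.Cov
import Vale.Agent.P144Y.L.Lat
import Vale.Agent.P144S.B.Odd
import Vale.Agent.P144D.MD.Main

/-!
The normalisation of the correlations of the components and of at most one spin.
-/

namespace Vale.Agent.P144Y.N

open Finset Filter Topology Metric Vale.Agent.P144
open Vale.Agent.P144.H170 (pt pt_fl_norm)
open Vale.Agent.P144.H436 (tr d1 mem_dia_tr out_dia MM_one_tr MM_out MM_ge)
open Vale.Agent.P144.AL (flt idt)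
open Vale.Agent.P144S.V (small0)
open Vale.Agent.P144S.B (MM_le_two)
open Vale.Agent.P144S.W (MM_pos)

theorem pt_d1 {a : ℝ} (ha : 0 < a) (w x : Site) : ‖pt a w - pt a x‖ ≤ a * (d1 w x : ℤ) := by
  refine (Complex.norm_le_abs_re_add_abs_im _).trans (le_of_eq ?_)
  simp only [pt, Complex.sub_re, Complex.sub_im, ← mul_sub, abs_mul, abs_of_pos ha, d1]
  push_cast
  ring

/-- The lower bound on the lattice. -/
theorem low_lat {V : Finset Site} {x : Site} {L k : ℕ} (hk : L < k) (h1 : ∀ w ∈ V, L < d1 w x)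
    (h2 : ∀ w ∈ V, w.1 + L < x.1 + k) :
    Dg k ≤ H436.MM (dia L) {0} ^ 2 * H436.MM V {x} := by
  obtain ⟨y, hy⟩ : ∃ y, y = x + ((k : ℤ), (k : ℤ)) := ⟨_, rfl⟩
  have y1 : y.1 = x.1 + k := by rw [hy]; rfl
  have y2 : y.2 = x.2 + k := by rw [hy]; rfl
  have e1 : d1 y x = 2 * k := by
    unfold d1
    rw [y1, y2, add_sub_cancel_left, add_sub_cancel_left, abs_of_nonneg (by positivity)]
    ring
  have e2 : d1 x y = 2 * k := by
    rw [← e1]; unfold d1; rw [abs_sub_comm, abs_sub_comm x.2]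
  set A := (dia L).map (tr x).toEmbedding with hA
  set B := (dia L).map (tr y).toEmbedding with hB
  have b1 := MM_ge (A ∪ B ∪ V) x (k := k) (by lia)
  rw [← hy] at b1
  have b2 := MM_le_two (Λ := A ∪ B ∪ V) subset_union_left subset_union_right (by
    rw [disjoint_right]
    intro w hw hw'
    rcases mem_union.1 hw' with h | h <;> have h := mem_dia_tr.1 h
    · exact absurd (h1 w hw) (not_lt.2 h)
    · have := h2 w hw
      have := neg_abs_le (w.1 - y.1)
      have := abs_nonneg (w.2 - y.2)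
      unfold d1 at h
      lia) (x ::ₘ y ::ₘ 0)
  have b3 := MM_le_two (Λ := A ∪ B) subset_union_left subset_union_right (by
    rw [disjoint_left]
    intro w hw hw'
    have c1 := mem_dia_tr.1 hw
    have c2 := mem_dia_tr.1 hw'
    unfold d1 at c1 c2
    have := le_abs_self (w.1 - x.1)
    have := le_abs_self (w.2 - x.2)
    have := neg_abs_le (w.1 - y.1)
    have := neg_abs_le (w.2 - y.2)
    lia) (x ::ₘ y ::ₘ 0)
  have c1 : H436.MM A (x ::ₘ y ::ₘ 0) = H436.MM (dia L) {0} := by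
    rw [Multiset.cons_swap, MM_out (out_dia (by lia)), ← MM_one_tr L x]
    rfl
  have c2 : H436.MM B (x ::ₘ y ::ₘ 0) = H436.MM (dia L) {0} := by
    rw [MM_out (out_dia (by lia)), ← MM_one_tr L y]
    rfl
  have c3 : H436.MM V (x ::ₘ y ::ₘ 0) = H436.MM V {x} := by
    rw [Multiset.cons_swap, MM_out (Or.inl fun w hw e => ?_)]
    · rfl
    · have := h2 w (mem_hor.1 hw).1
      lia
  rw [c1, c2] at b3
  rw [c3] at b2
  rw [sq]
  exact b1.trans (b2.trans (mul_le_mul_of_nonneg_right b3 (H436.MM_pos _ _).le))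

variable {D : Set ℂ} {P : ℝ → Finset Site}

/-- The correlation of a component is bounded below. -/
theorem hole_low (hD : D ⊆ ball 0 (1 / 4)) (hP : FamB D P) {ξ : ℂ} (hξ : ξ ∈ Ext D) :
    ∃ c > (0 : ℝ), ∀ᶠ a in 𝓝[>] (0 : ℝ), c ≤ MM (P a) {fl a ξ} := by
  obtain ⟨ε₀, hε₀, h⟩ := Metric.mem_nhds_iff.1 (isClosed_closure.isOpen_compl.mem_nhds hξ.2)
  obtain ⟨ε, hε, ε1, ε2⟩ : ∃ ε > (0 : ℝ), ε ≤ ε₀ ∧ ε ≤ 1 :=
    ⟨min ε₀ 1, by positivity, min_le_left _ _, min_le_right _ _⟩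
  obtain ⟨A, hA0, hA⟩ := Dg_asymp
  obtain ⟨C, hC, hd⟩ := P144Z.MD.dia_decay
  obtain ⟨m, m1⟩ := exists_nat_ge (8 / ε)
  have m2 : 8 ≤ ε * m := by rwa [div_le_iff₀' hε] at m1
  have m3 : (1 : ℝ) ≤ m := by nlinarith
  have m4 : 1 ≤ m := by exact_mod_cast m3
  have hk : Tendsto (fun a : ℝ => m * (⌊ε / 4 / a⌋₊ + 1)) (𝓝[>] 0) atTop :=
    tendsto_atTop_mono (f := fun a : ℝ => ⌊ε / 4 / a⌋₊) (fun a => by nlinarith)
      (tendsto_nat_floor_atTop.comp
      (f := fun a : ℝ => ε / 4 * a⁻¹) (tendsto_inv_nhdsGT_zero.const_mul_atTop (by positivity)))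
  refine ⟨A / 2 / (C ^ 2 * (m : ℝ) ^ (1 / 4 : ℝ)), by positivity, ?_⟩
  filter_upwards [(hA.comp hk).eventually_const_lt (half_lt_self hA0),
    hP.2.2.sub (ε / 4) (by positivity), small0 (s := ε / 8) (by positivity)] with a h1 h2 ⟨ha, h3⟩
  set L := ⌊ε / 4 / a⌋₊ with hL
  have L1 : a * L ≤ ε / 4 := by
    have := Nat.floor_le (show 0 ≤ ε / 4 / a by positivity)
    rwa [le_div_iff₀' ha] at this
  have L2 : ε / 4 ≤ a * (L + 1) := by
    have := (Nat.lt_floor_add_one (ε / 4 / a)).le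
    rwa [div_le_iff₀' ha] at this
  have p1 := pt_fl_norm ha ξ
  have key := low_lat (V := Vx (P a)) (x := fl a ξ) (L := L) (k := m * (L + 1)) (by nlinarith)
    (fun w hw => by
      by_contra hc
      obtain ⟨z, hz, h4⟩ := h2 w hw
      refine h ?_ (subset_closure hz)
      rw [mem_ball, dist_eq_norm]
      have e1 := pt_d1 ha w (fl a ξ)
      have e2 : ((d1 w (fl a ξ) : ℤ) : ℝ) ≤ L := by exact_mod_cast not_lt.1 hc
      have e3 := norm_sub_le_norm_sub_add_norm_sub z (pt a w) ξ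
      have e4 := norm_sub_le_norm_sub_add_norm_sub (pt a w) (pt a (fl a ξ)) ξ
      rw [norm_sub_rev z (pt a w)] at e3
      nlinarith)
    (fun w hw => by
      obtain ⟨z, hz, h4⟩ := h2 w hw
      have e1 : ‖z‖ < 1 / 4 := by simpa using hD hz
      have e2 := (Complex.re_le_norm _).trans h4
      have e3 := (abs_le.1 ((Complex.abs_re_le_norm _).trans p1)).1
      have e4 := (abs_le.1 ((Complex.abs_re_le_norm _).trans hξ.1)).1
      have e5 := Complex.re_le_norm z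
      simp only [pt, Complex.sub_re] at e2 e3
      have e6 : 2 ≤ a * (m * (L + 1)) := by nlinarith
      have e7 : a * ((w.1 + L : ℤ) : ℝ) < a * (((fl a ξ).1 + (m * (L + 1) : ℕ) : ℤ) : ℝ) := by
        push_cast
        linarith
      exact_mod_cast lt_of_mul_lt_mul_left e7 ha.le)
  rw [← K.smm.blk _ _ (hP.2.1 a)] at key
  have q0 := MM_pos (P a) {fl a ξ}
  have q1 : H436.MM (dia L) {0} ^ 2 ≤ (C * ((L : ℝ) + 1) ^ (-(1 / 8) : ℝ)) ^ 2 :=
    pow_le_pow_left₀ (H436.MM_pos _ _).le (hd L) 2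
  have q2 : ((L : ℝ) + 1) ^ (1 / 4 : ℝ) * (((L : ℝ) + 1) ^ (-(1 / 8) : ℝ)) ^ 2 = 1 := by
    rw [sq, ← Real.rpow_add (by positivity), ← Real.rpow_add (by positivity)]
    norm_num
  simp only [Function.comp] at h1
  rw [← hL] at h1
  have q3 : ((m * (L + 1) : ℕ) : ℝ) ^ (1 / 4 : ℝ) =
      (m : ℝ) ^ (1 / 4 : ℝ) * ((L : ℝ) + 1) ^ (1 / 4 : ℝ) := by
    push_cast
    exact Real.mul_rpow (by positivity) (by positivity)
  rw [div_le_iff₀ (by positivity)]
  calc A / 2 ≤ ((m * (L + 1) : ℕ) : ℝ) ^ (1 / 4 : ℝ) * Dg (m * (L + 1)) := h1.le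
    _ ≤ ((m * (L + 1) : ℕ) : ℝ) ^ (1 / 4 : ℝ) *
        ((C * ((L : ℝ) + 1) ^ (-(1 / 8) : ℝ)) ^ 2 * MM (P a) {fl a ξ}) :=
      mul_le_mul_of_nonneg_left (key.trans (mul_le_mul_of_nonneg_right q1 q0.le)) (by positivity)
    _ = _ := by
      rw [q3]
      linear_combination ((m : ℝ) ^ (1 / 4 : ℝ) * C ^ 2 * MM (P a) {fl a ξ}) * q2

theorem GW_zero1 (P : ℝ → Finset Site) (S : Finset ℂ) (a : ℝ) :
    GW P ∅ S a = MM (P a) (fm a S) := by simp [GW, fm]

theorem GW_one1 (P : ℝ → Finset Site) (z : ℂ) (S : Finset ℂ) (a : ℝ) :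
    GW P {z} S a = a ^ (-(1 : ℝ) / 8) * MM (P a) (fl a z ::ₘ fm a S) := by simp [GW, fm]

theorem fm_insert {ξ : ℂ} {S : Finset ℂ} [DecidableEq ℂ] (h : ξ ∉ S) (a : ℝ) :
    fm a (insert ξ S) = fl a ξ ::ₘ fm a S := by
  unfold fm
  rw [insert_val_of_notMem h, Multiset.map_cons]

/-- Near the component of `ξ` a spin is almost independent of the other components. -/
theorem fact (hB : SBig) (hD : Std D) (hP : FamP D P) {ξ : ℂ} (hξ : ξ ∈ Ext D) {S : Finset ℂ}
    (hS : ∀ z ∈ S, z ∈ Ext D) : ∃ C ≥ (0 : ℝ), ∀ A : ℝ, ∃ z ∈ D, ∀ᶠ a in 𝓝[>] (0 : ℝ),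
      A ≤ GW P {z} {ξ} a ∧ GW P ∅ S a * GW P {z} {ξ} a ≤
        a ^ (-(1 : ℝ) / 8) * MM (P a) (fl a z ::ₘ fl a ξ ::ₘ fm a S) ∧
      a ^ (-(1 : ℝ) / 8) * MM (P a) (fl a z ::ₘ fl a ξ ::ₘ fm a S) ≤
        GW P ∅ S a * GW P {z} {ξ} a + C := by
  obtain ⟨ρ, hρ, C, h⟩ := hB 1 one_pos D P hD hP ξ hξ S fun w hw => Or.inr (hS w hw)
  refine ⟨(S.card + 1) * |C|, by positivity, fun A => ?_⟩
  obtain ⟨z, hz, h⟩ := h A
  refine ⟨z, hz, ?_⟩
  filter_upwards [h, L.fl_out hP.1 hξ.2, hP.1.mem idt hz (flt z),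
    small0 (s := ρ / 2) (by positivity)] with a ⟨h1, B, b1, b2, b3, b4⟩ h2 h3 ⟨ha, h4⟩
  have p : 0 ≤ a ^ (-(1 : ℝ) / 8) := by positivity
  have e0 : fm a {ξ} = fl a ξ ::ₘ 0 := rfl
  have k1 := K.smm.gks (P a) (fl a z ::ₘ fl a ξ ::ₘ 0) (fm a S)
  rw [Multiset.cons_add, Multiset.cons_add, zero_add] at k1
  have k2 := G.cov1 1 one_pos (P a) B (fl a ξ) (fl a z) (fm a S) h2 h3 b1 b2 (by
    intro x hx hxB
    obtain ⟨w, hw, rfl⟩ := Multiset.mem_map.1 hx
    linarith [b3 w hw _ hxB, pt_fl_norm ha w])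
  have e1 : (Multiset.card (fm a S) : ℝ) = S.card := by simp [fm]
  rw [e1] at k2
  refine ⟨h1, ?_, ?_⟩ <;> rw [GW_zero1, GW_one1, e0]
  · linarith [mul_le_mul_of_nonneg_left k1 p]
  · have k3 := mul_le_mul_of_nonneg_left (b4.trans (le_abs_self C))
      (show (0 : ℝ) ≤ S.card + 1 by positivity)
    linarith [mul_le_mul_of_nonneg_left k2 p]

theorem ext38 (hD : D ⊆ ball 0 (1 / 4)) : ((3 / 8 : ℝ) : ℂ) ∈ Ext D := by
  refine ⟨by rw [Complex.norm_real]; norm_num, fun h => ?_⟩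
  have := closure_ball_subset_closedBall (closure_mono hD h)
  rw [mem_closedBall_zero_iff, Complex.norm_real] at this
  norm_num at this

theorem far38 (hD : D ⊆ ball 0 (1 / 4)) (hP : Fam0 D P) : ∀ᶠ a in 𝓝[>] (0 : ℝ),
    ∀ R, MM (P a) (fl a ((3 / 8 : ℝ) : ℂ) ::ₘ R) = MM (P a) R := by
  filter_upwards [hP.sub (1 / 16) (by norm_num), small0 (s := 1 / 32) (by norm_num)]
    with a h1 ⟨ha, h2⟩ R
  refine K.smm.far _ _ _ fun y hy e => ?_
  obtain ⟨z, hz, h4⟩ := h1 y hy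
  have e1 : ‖z‖ < 1 / 4 := by simpa using hD hz
  have e2 := (Complex.re_le_norm _).trans h4
  have e3 := (abs_le.1 ((Complex.abs_re_le_norm _).trans (pt_fl_norm ha ((3 / 8 : ℝ) : ℂ)))).1
  have e5 := Complex.re_le_norm z
  simp only [pt, Complex.sub_re, Complex.ofReal_re] at e2 e3
  rw [e] at e2
  linarith

/-- At most one spin. -/
theorem shole (hB : SBig) : SHole := by
  classical
  intro D P hD hP hR h1 S
  induction S using Finset.induction_on with
  | empty =>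
    refine fun _ => ⟨⟨1, one_pos, tendsto_const_nhds.congr fun a => ?_⟩, fun z hz => ?_⟩
    · rw [GW_zero1]
      exact (div_self (P144S.W.QQ_pos _ _).ne').symm
    · obtain ⟨g, g0, hg⟩ := h1 _ (ext38 hD.small) z hz
      refine ⟨g, g0, hg.congr' ?_⟩
      filter_upwards [far38 hD.small hP.1.1] with a h
      rw [GW_one1, GW_one1, show fm a {((3 / 8 : ℝ) : ℂ)} = fl a ((3 / 8 : ℝ) : ℂ) ::ₘ 0 from rfl,
        Multiset.cons_swap, h]
      rfl
  | insert ξ S hξS ih =>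
    intro hS'
    have hξ := hS' ξ (mem_insert_self _ _)
    have hS : ∀ z ∈ S, z ∈ Ext D := fun z hz => hS' z (mem_insert_of_mem hz)
    obtain ⟨⟨g, g0, hg⟩, ih⟩ := ih hS
    have hg' := hg.eventually_const_lt (half_lt_self g0)
    constructor
    · obtain ⟨c, c0, hc⟩ := hole_low hD.small hP hξ
      obtain ⟨C, C0, h⟩ := fact hB hD hP.1 hξ hS'
      refine H436.lim_of_factor (C := 1) (Eventually.of_forall fun a => by
        rw [GW_zero1]; exact K.smm.le _ _) fun ε hε => ?_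
      obtain ⟨z, hz, h⟩ := h (C / (ε * (c * (g / 2))) + 1)
      obtain ⟨e, e0, he⟩ := h1 ξ hξ z hz
      obtain ⟨v, v0, hv⟩ := ih z hz
      refine ⟨fun a => GW P {z} S a / GW P {z} {ξ} a / (1 + ε), v / e / (1 + ε), by positivity,
        (hv.div he e0.ne').div_const _, ?_⟩
      filter_upwards [h, hc, hg'] with a ⟨b1, b2, b3⟩ b4 b5
      rw [fm_insert hξS, Multiset.cons_swap (fl a z), Multiset.cons_swap (fl a z), K.smm.dbl,
        ← GW_one1] at b2 b3
      have p0 : 0 ≤ C / (ε * (c * (g / 2))) := by positivity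
      have p1 : 0 < GW P {z} {ξ} a := by linarith
      have p2 : c * (g / 2) ≤ GW P ∅ (insert ξ S) a := by
        have := K.smm.gks (P a) {fl a ξ} (fm a S)
        rw [GW_zero1] at b5
        rw [GW_zero1, fm_insert hξS]
        exact (mul_le_mul b4 b5.le (by positivity) (c0.le.trans b4)).trans this
      have p3 : C ≤ ε * (c * (g / 2)) * GW P {z} {ξ} a := by
        rw [← div_le_iff₀' (by positivity)]
        linarith
      have p4 := mul_le_mul_of_nonneg_right (mul_le_mul_of_nonneg_left p2 hε.le) p1.le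
      constructor
      · rw [div_le_iff₀ (by positivity), div_le_iff₀ p1]
        linarith
      · rw [mul_div_cancel₀ _ (by positivity), le_div_iff₀ p1]
        exact b2
    · intro z₀ hz₀
      obtain ⟨C, C0, h⟩ := fact hB hD hP.1 hξ hS
      have key : ∀ A : ℝ, ∃ (r e : ℝ → ℝ) (r₀ e₀ : ℝ), 0 < r₀ ∧ 0 < e₀ ∧
          Tendsto r (𝓝[>] 0) (𝓝 r₀) ∧ Tendsto e (𝓝[>] 0) (𝓝 e₀) ∧ ∀ᶠ a in 𝓝[>] (0 : ℝ),
            0 ≤ r a ∧ A ≤ e a ∧ r a * (GW P ∅ S a * e a) ≤ GW P {z₀} (insert ξ S) a ∧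
              GW P {z₀} (insert ξ S) a ≤ r a * (GW P ∅ S a * e a + C) := by
        intro A
        obtain ⟨z, hz, h⟩ := h A
        obtain ⟨e, e0, he⟩ := h1 ξ hξ z hz
        obtain ⟨r, r0, hr⟩ := hR {z₀} {z} (insert ξ S) (by simpa using hz₀) (by simpa using hz)
          hS' rfl
        refine ⟨_, _, r, e, r0, e0, hr, he, ?_⟩
        filter_upwards [h] with a ⟨b1, b2, b3⟩
        have p0 := MM_pos (P a) (fm a {z} + fm a (insert ξ S))
        have p1 := (div_pos (MM_pos (P a) (fm a {z₀} + fm a (insert ξ S))) p0).le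
        have p2 : GW P {z₀} (insert ξ S) a = MM (P a) (fm a {z₀} + fm a (insert ξ S)) /
            MM (P a) (fm a {z} + fm a (insert ξ S)) *
            (a ^ (-(1 : ℝ) / 8) * MM (P a) (fl a z ::ₘ fl a ξ ::ₘ fm a S)) := by
          rw [← fm_insert hξS, show fl a z ::ₘ fm a (insert ξ S) =
            fm a {z} + fm a (insert ξ S) from rfl, mul_left_comm, div_mul_cancel₀ _ p0.ne', GW_one1]
          rfl
        rw [p2]
        exact ⟨p1, b1, mul_le_mul_of_nonneg_left b2 p1, mul_le_mul_of_nonneg_left b3 p1⟩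
      obtain ⟨r, e, r₀, e₀, -, -, k1, k2, k3⟩ := key 0
      refine H436.lim_of_factor (C := r₀ * (g * e₀ + C) + 1) (by
        filter_upwards [k3, (k1.mul ((hg.mul k2).add_const C)).eventually_lt_const
          (lt_add_one _)] with a b b'
        exact b.2.2.2.trans b'.le) fun ε hε => ?_
      obtain ⟨r, e, r₀, e₀, r0, e0, k1, k2, k3⟩ := key (C / (ε * (g / 2)))
      refine ⟨_, _, by positivity, k1.mul (hg.mul k2), ?_⟩
      filter_upwards [k3, hg'] with a ⟨b0, b1, b2, b3⟩ b4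
      refine ⟨b2, b3.trans ?_⟩
      have p0 : 0 ≤ e a := le_trans (by positivity) b1
      rw [div_le_iff₀' (by positivity)] at b1
      have p1 := mul_le_mul_of_nonneg_right (mul_le_mul_of_nonneg_left b4.le hε.le) p0
      have p2 := mul_le_mul_of_nonneg_left (b1.trans p1) b0
      linarith

end Vale.Agent.P144Y.N
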