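import Vale.Agent.P144Y.N.Big
import Vale.Agent.P144.H436.Norm4

/-!
The normalisation of one spin and one component.
-/

namespace Vale.Agent.P144Y.N

open Finset Filter Topology Metric Vale.Agent.P144 Vale.Agent.P144Z.St
open Vale.Agent.P144.H170 (pt pt_fl_norm)
open Vale.Agent.P144.H436 (boxAt mem_boxAt)
open Vale.Agent.P144.AL (flt idt)

theorem ext_ev {D : Set ℂ} {P : ℝ → Finset Site} (hP : Fam0 D P) {ξ : ℂ} (hξ : ξ ∈ Ext D) :
    ∀ᶠ a in 𝓝[>] (0 : ℝ), fl a ξ ∉ P a := by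
  obtain ⟨ε, ε0, h⟩ := Metric.isOpen_iff.1 isClosed_closure.isOpen_compl ξ hξ.2
  filter_upwards [hP.sub (ε / 2) (half_pos ε0), ev_le (c := ε / 8) (by positivity)]
    with a h1 ⟨ha, h2⟩ c
  obtain ⟨z, hz, z1⟩ := h1 _ c
  refine h (show z ∈ ball ξ ε from ?_) (subset_closure hz)
  rw [mem_ball, dist_eq_norm]
  linarith [norm_sub_le_norm_sub_add_norm_sub z (pt a (fl a ξ)) ξ, pt_fl_norm ha ξ,
    norm_sub_rev z (pt a (fl a ξ))]

theorem lim_sq {u : ℝ → ℝ} {C : ℝ} (key : ∀ B : ℝ, ∃ (r G : ℝ → ℝ) (r₀ g : ℝ), 0 < r₀ ∧ 0 < g ∧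
    Tendsto r (𝓝[>] 0) (𝓝 r₀) ∧ Tendsto G (𝓝[>] 0) (𝓝 g) ∧ ∀ᶠ a in 𝓝[>] (0 : ℝ),
      0 < r a ∧ 0 < u a ∧ u a ^ 2 * r a ≤ G a ∧ G a ≤ u a ^ 2 * r a + C ∧ B ≤ u a * r a) :
    ∃ g > 0, Tendsto u (𝓝[>] 0) (𝓝 g) := by
  obtain ⟨r, G, r₀, g, r0, g0, h1, h2, h3⟩ := key 1
  have low : ∀ᶠ a in 𝓝[>] (0 : ℝ), 1 / (2 * r₀) ≤ u a := by
    filter_upwards [h3, h1.eventually_lt_const (show r₀ < 2 * r₀ by linarith)] with a e e'
    rw [div_le_iff₀ (by positivity)]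
    nlinarith [e.2.1, e.2.2.2.2]
  obtain ⟨g', g0', hl⟩ := H436.lim_of_factor (l := 𝓝[>] 0) (G := fun a => u a ^ 2)
    (C := g / r₀ + 1) (by
      filter_upwards [h3, (h2.div h1 r0.ne').eventually_lt_const (lt_add_one _)] with a e e'
      exact ((le_div_iff₀ e.1).2 e.2.2.1).trans e'.le) fun ε hε => by
    obtain ⟨r', G', r₁, g₁, r1, g1, k1, k2, k3⟩ := key (2 * r₀ * |C| / ε)
    refine ⟨fun a => G' a / r' a / (1 + ε), g₁ / r₁ / (1 + ε), by positivity,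
      (k2.div k1 r1.ne').div_const _, ?_⟩
    filter_upwards [k3, low] with a e e'
    obtain ⟨e1, e2, e3, e4, e6⟩ := e
    rw [div_le_iff₀ hε] at e6
    rw [div_le_iff₀ (by positivity)] at e'
    constructor
    · rw [div_le_iff₀ (by positivity), div_le_iff₀ e1]
      have e7 : |C| ≤ ε * (u a ^ 2 * r' a) := by
        have e8 := mul_le_mul_of_nonneg_left e6 e2.le
        have e9 := mul_le_mul_of_nonneg_right e' (abs_nonneg C)
        nlinarith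
      linarith [le_abs_self C]
    · rw [mul_div_cancel₀ _ (by positivity), le_div_iff₀ e1]
      exact e3
  refine ⟨√g', Real.sqrt_pos.2 g0', hl.sqrt.congr' ?_⟩
  filter_upwards [h3] with a e
  exact Real.sqrt_sq e.2.1.le

theorem one (hM : SMM) : SOne := by
  intro D P hD hP hr hn ξ hξ y hy
  obtain ⟨C₀, hC₀, hmag⟩ := mag_sc one_pos
  obtain ⟨ρ, hρ, C, hb⟩ := big hM 1 one_pos D P hD hP.1 ξ hξ {y} fun w hw => by
    rw [mem_singleton.1 hw]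
    exact Or.inl hy
  obtain ⟨δ, δ0, hδ⟩ := nhds_basis_closedBall.mem_iff.1 (hD.op.mem_nhds hy)
  obtain ⟨s, s0, s1, s2⟩ : ∃ s > (0 : ℝ), 3 * s ≤ δ ∧ 4 * s ≤ ρ :=
    ⟨min (δ / 3) (ρ / 4), by positivity, by linarith [min_le_left (δ / 3) (ρ / 4)],
      by linarith [min_le_right (δ / 3) (ρ / 4)]⟩
  refine lim_sq (C := C * (C₀ * s ^ (-(1 : ℝ) / 8))) fun A => ?_
  obtain ⟨z, hz, h⟩ := hb A
  have ne : z ≠ y := by
    obtain ⟨a, ⟨-, B, b1, -, b2, -⟩, ha, a1⟩ := (h.and (ev_le (c := ρ / 4) (by positivity))).exists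
    rintro rfl
    linarith [b2 z (mem_singleton_self _) _ b1, pt_fl_norm ha z]
  obtain ⟨r₀, r0, h1⟩ := hr {z} {y} {ξ} (by simpa using hz) (by simpa using hy)
    (by simpa using hξ) rfl
  obtain ⟨g, g0, h2⟩ := hn {z, y} (by simp [hz, hy]) (by rw [card_pair ne]; exact even_two)
  refine ⟨_, _, r₀, g, r0, g0, h1, h2, ?_⟩
  filter_upwards [h, ext_ev hP.1.1 hξ, hP.1.1.mem idt hz (flt z),
    hP.1.1.cpt (isCompact_closedBall y δ) hδ, ev_le (c := s / 8) (by positivity)]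
    with a ⟨e0, B, b1, b2, b3, b4⟩ e1 e2 e3 ⟨ha, a1⟩
  have n1 := ceil_bd ha s0.le
  have hB : ∀ x ∈ boxAt (fl a y) ⌈s / a⌉₊, ‖pt a x - y‖ ≤ 2 * s + 4 * a := fun x hx => by
    linarith [pt_sub_le ha (mem_boxAt.1 hx).1 (mem_boxAt.1 hx).2, pt_fl_norm ha y,
      norm_sub_le_norm_sub_add_norm_sub (pt a x) (pt a (fl a y)) y]
  have c2 := G.cov2 1 one_pos (P a) B (boxAt (fl a y) ⌈s / a⌉₊) _ _ (fl a y) e1 e2 b1
    (mem_boxAt.2 (by simp)) (fun x hx => e3 x (by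
      rw [mem_closedBall, dist_eq_norm]
      linarith [hB x hx])) b2 fun x hx x' hx' => by
      by_contra c
      have := pt_sub_le ha (x := x') (y := x) (m := 1)
        (by push_cast; linarith [abs_nonneg (x.2 - x'.2)])
        (by push_cast; linarith [abs_nonneg (x.1 - x'.1)])
      push_cast at this
      linarith [b3 y (mem_singleton_self _) x hx, hB x' hx',
        norm_sub_le_norm_sub_add_norm_sub (pt a x) (pt a x') y]
  have c1 := hM.gks (P a) (fl a y ::ₘ fl a ξ ::ₘ 0) (fl a z ::ₘ fl a ξ ::ₘ 0)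
  rw [show (fl a y ::ₘ fl a ξ ::ₘ 0) + (fl a z ::ₘ fl a ξ ::ₘ 0) =
    fl a ξ ::ₘ fl a ξ ::ₘ fl a z ::ₘ fl a y ::ₘ 0 by
      simp only [← Multiset.singleton_add]
      abel, hM.dbl] at c1
  have e4 : Gn (fun a => Vx (P a)) {z, y} a =
      (a ^ (-(1 : ℝ) / 8)) ^ 2 * MM (P a) (fl a z ::ₘ fl a y ::ₘ 0) := by
    rw [P144Q.Gn, P144Q.Mn, hM.blk _ _ (hP.2.1 a), card_pair ne, sq, ← Real.rpow_add ha,
      insert_val_of_notMem (by simpa using ne)]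
    norm_num
  have e5 : ∀ w, fm a {w} + fm a {ξ} = fl a w ::ₘ fl a ξ ::ₘ 0 := fun w => by simp [fm]
  rw [GW_xi] at e0
  rw [e4, e5, e5, GW_xi]
  have p1 := hM.pos (P a) (fl a y ::ₘ fl a ξ ::ₘ 0)
  have p2 := hM.pos (P a) (fl a z ::ₘ fl a ξ ::ₘ 0)
  have p3 : 0 < a ^ (-(1 : ℝ) / 8) := by positivity
  have c3 := mul_le_mul b4 (hmag a ha s s0 (fl a y)) (mul_nonneg p3.le (mag_nonneg one_pos _ _))
    ((mul_nonneg p3.le (mag_nonneg one_pos _ _)).trans b4)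
  generalize MM (P a) (fl a y ::ₘ fl a ξ ::ₘ 0) = m₁ at *
  generalize MM (P a) (fl a z ::ₘ fl a ξ ::ₘ 0) = m₂ at *
  generalize a ^ (-(1 : ℝ) / 8) = α at *
  have f1 : (α * m₁) ^ 2 * (m₂ / m₁) = α ^ 2 * (m₁ * m₂) := by field_simp
  have f2 : α * m₁ * (m₂ / m₁) = α * m₂ := by field_simp
  rw [f1, f2]
  exact ⟨by positivity, by positivity, mul_le_mul_of_nonneg_left c1 (sq_nonneg α),
    by linarith [mul_le_mul_of_nonneg_left c2 (sq_nonneg α)], e0⟩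

end Vale.Agent.P144Y.N
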