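import Vale.Agent.P144Y.N.Lat

/-!
Near a component of the complement the correlation with it is large.
-/

namespace Vale.Agent.P144Y.N

open Finset Filter Topology Metric Vale.Agent.P144 Vale.Agent.P144Z.St
open Vale.Agent.P144.H170 (pt pt_fl_norm)
open Vale.Agent.P144.H436 (boxAt mem_boxAt)
open Vale.Agent.P144.AL (mem_cnr)

theorem ev_le {c : ℝ} (hc : 0 < c) : ∀ᶠ a in 𝓝[>] (0 : ℝ), 0 < a ∧ a ≤ c := by
  filter_upwards [Ioc_mem_nhdsGT hc] with a ha using ha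

theorem exists_dir (u : ℂ) : ∃ σ τ : ℤ, (σ = 1 ∨ σ = -1) ∧ (τ = 1 ∨ τ = -1) ∧
    ∀ t : ℝ, 0 ≤ t → t ≤ ‖u‖ / 2 → ‖u + t * (⟨σ, τ⟩ : ℂ)‖ ≤ ‖u‖ - t / 2 := by
  have k : ∀ x : ℝ, ∃ σ : ℤ, (σ = 1 ∨ σ = -1) ∧ σ * x = -|x| ∧ (σ : ℝ) * σ = 1 := fun x => by
    rcases le_total 0 x with h | h
    · exact ⟨-1, Or.inr rfl, by simp [abs_of_nonneg h], by simp⟩
    · exact ⟨1, Or.inl rfl, by simp [abs_of_nonpos h], by simp⟩
  obtain ⟨σ, a1, a2, a3⟩ := k u.re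
  obtain ⟨τ, b1, b2, b3⟩ := k u.im
  refine ⟨σ, τ, a1, b1, fun t t0 t1 => (abs_le_of_sq_le_sq' ?_ (by linarith)).2⟩
  have h1 := Complex.sq_norm u
  have h2 := mul_le_mul_of_nonneg_left (Complex.norm_le_abs_re_add_abs_im u) t0
  have h3 := mul_le_mul_of_nonneg_left t1 t0
  rw [Complex.normSq_apply] at h1
  rw [Complex.sq_norm, Complex.normSq_apply]
  simp only [Complex.add_re, Complex.add_im, Complex.re_ofReal_mul, Complex.im_ofReal_mul]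
  have e : (u.re + t * σ) * (u.re + t * σ) + (u.im + t * τ) * (u.im + t * τ) =
      ‖u‖ ^ 2 - 2 * (t * (|u.re| + |u.im|)) + 2 * t ^ 2 := by
    linear_combination 2 * t * a2 + 2 * t * b2 + t ^ 2 * a3 + t ^ 2 * b3 - h1
  rw [e]
  nlinarith [sq_nonneg t]

theorem GW_xi (P : ℝ → Finset Site) (z ξ : ℂ) (a : ℝ) :
    GW P {z} {ξ} a = a ^ (-(1 : ℝ) / 8) * MM (P a) (fl a z ::ₘ fl a ξ ::ₘ 0) := by
  simp [GW, fm]

theorem cnr_close {v f g : Site} (hf : v ∈ AL.cnr f) (hg : v ∈ AL.cnr g) :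
    (-1 ≤ f.1 - g.1 ∧ f.1 - g.1 ≤ 1) ∧ -1 ≤ f.2 - g.2 ∧ f.2 - g.2 ≤ 1 := by
  rcases mem_cnr.1 hf with h | h | h | h <;> rcases mem_cnr.1 hg with h' | h' | h' | h' <;>
    simp only [Prod.ext_iff] at h h' <;> omega

theorem norm_dir {σ τ : ℤ} (hσ : σ = 1 ∨ σ = -1) (hτ : τ = 1 ∨ τ = -1) {t : ℝ} (ht : 0 ≤ t) :
    ‖t * (⟨σ, τ⟩ : ℂ)‖ ≤ 2 * t := by
  rw [norm_mul, Complex.norm_real, Real.norm_of_nonneg ht, mul_comm]
  refine mul_le_mul_of_nonneg_right ((Complex.norm_le_abs_re_add_abs_im _).trans ?_) ht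
  rcases hσ with rfl | rfl <;> rcases hτ with rfl | rfl <;> simp <;> norm_num

theorem low (hM : SMM) {J A A₀ C t a d : ℝ} (hJ : 0 < J) (hA : 0 < A₀) (hC : 0 < C) (t0 : 0 < t)
    (ha : 0 < a) (a1 : a ≤ t / 1000) {σ τ : ℤ} (hσ : σ = 1 ∨ σ = -1) (hτ : τ = 1 ∨ τ = -1)
    (h3 : A₀ * (t ^ (-(1 : ℝ) / 8)) ^ 2 ≤ (a ^ (-(1 : ℝ) / 8)) ^ 2 * Dg ⌈t / a⌉₊)
    (m2 : ∀ x, a ^ (-(1 : ℝ) / 8) * mag J (boxAt x ⌈t / 40 / a⌉₊) x ≤
      C * (t / 40) ^ (-(1 : ℝ) / 8)) {P : Finset Site} {ξ p : ℂ} {c y : Site}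
    (out : ∀ x, ‖pt a x - ξ‖ ≤ d - t / 50 → x ∉ P)
    (cn : ∀ x, ‖pt a x - ξ‖ ≤ d - t / 25 → Cn P c x) (c1 : ‖pt a c - ξ‖ ≤ d - t / 50)
    (y2 : ‖pt a y - p‖ ≤ 2 * a + t / 100) (hd : ‖p + t * (⟨σ, τ⟩ : ℂ) - ξ‖ ≤ d - t / 2)
    (t2 : A * (C * (1 / 40 : ℝ) ^ (-(1 : ℝ) / 8)) / A₀ ≤ t ^ (-(1 : ℝ) / 8)) :
    A ≤ a ^ (-(1 : ℝ) / 8) * MM P (y ::ₘ c ::ₘ 0) := by
  have tri := fun x y w : ℂ => norm_sub_le_norm_sub_add_norm_sub x y w
  have k1 := ceil_bd ha t0.le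
  have m1 := ceil_bd ha (show 0 ≤ t / 40 by positivity)
  generalize ⌈t / a⌉₊ = k at k1 h3
  generalize ⌈t / 40 / a⌉₊ = m at m1 m2
  have km : m < k := by
    have : a * (m : ℝ) < a * k := by linarith
    exact_mod_cast lt_of_mul_lt_mul_left this ha.le
  obtain ⟨y', hy'⟩ : ∃ y' : Site, y' = (y.1 + σ * k, y.2 + τ * k) := ⟨_, rfl⟩
  have b1 : pt a y' - (p + t * (⟨σ, τ⟩ : ℂ)) =
      (pt a y - p) + (a * k - t : ℝ) * (⟨σ, τ⟩ : ℂ) := by
    apply Complex.ext <;> simp [pt, hy'] <;> ring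
  have b2 : ‖pt a y' - ξ‖ ≤ d - t / 2 + t / 100 + 4 * a := by
    have := norm_add_le (pt a y - p) ((a * k - t : ℝ) * (⟨σ, τ⟩ : ℂ))
    rw [← b1] at this
    linarith [tri (pt a y') (p + t * (⟨σ, τ⟩ : ℂ)) ξ,
      norm_dir hσ hτ (show 0 ≤ a * k - t by linarith)]
  have b3 := split hM hJ (P := P) (Q := boxAt y' m) (y := y') (R := y ::ₘ 0)
    (disjoint_left.2 fun v hv hv' => by
      obtain ⟨f, hf, f1⟩ := mem_biUnion.1 hv
      obtain ⟨g, hg, g1⟩ := mem_biUnion.1 hv'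
      rw [mem_boxAt, abs_le, abs_le] at hg
      have g2 := cnr_close f1 g1
      have := pt_sub_le ha (x := y') (y := f) (m := m + 1) (abs_le.2 (by omega))
        (abs_le.2 (by omega))
      push_cast at this
      exact out f (by linarith [tri (pt a f) (pt a y') ξ]) hf)
    (mem_boxAt.2 (by simp)) fun x hx c => by
      rw [show x = y by simpa using hx, mem_boxAt, abs_le, hy'] at c
      rcases hσ with rfl | rfl <;> simp only at c <;> omega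
  rw [← hM.con _ _ _ _ (out _ c1) (cn y' (by linarith)), Multiset.cons_swap c] at b3
  have b4 := (hy' ▸ diag_ge _ y (by omega) hσ hτ).trans b3
  have b5 := hM.pos P (y ::ₘ c ::ₘ 0)
  have b6 := m2 y'
  rw [div_eq_mul_one_div t, Real.mul_rpow t0.le (by norm_num)] at b6
  rw [div_le_iff₀ hA] at t2
  have p1 : 0 < a ^ (-(1 : ℝ) / 8) := by positivity
  have p2 : 0 < t ^ (-(1 : ℝ) / 8) := by positivity
  have p3 : 0 < C * (1 / 40 : ℝ) ^ (-(1 : ℝ) / 8) := by positivity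
  have b7 := mul_le_mul_of_nonneg_left b4 (sq_nonneg (a ^ (-(1 : ℝ) / 8)))
  have b8 := mul_le_mul_of_nonneg_left b6 (mul_pos p1 b5).le
  have b9 := mul_le_mul_of_nonneg_left t2 p2.le
  refine le_of_mul_le_mul_right ?_ (mul_pos p2 p3)
  linarith

theorem big (hM : SMM) : SBig := by
  intro J hJ D P hD hP ξ hξ F hF
  obtain ⟨C, hC, hmag⟩ := mag_sc hJ
  obtain ⟨A₀, hA, hdg⟩ := dg_sc
  obtain ⟨r, hr, hlc⟩ := hP.2
  obtain ⟨p, hp, hmin⟩ := (isBounded_ball.subset hD.small).isCompact_closure.exists_isMinOn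
    hD.ne.closure (f := fun w => ‖w - ξ‖) (by fun_prop)
  obtain ⟨σ, τ, hσ, hτ, hdir⟩ := exists_dir (p - ξ)
  have d0 : 0 < ‖p - ξ‖ := norm_pos_iff.2 (sub_ne_zero.2 fun h => hξ.2 (h ▸ hp))
  have hout : ∀ w ∈ D, ‖p - ξ‖ ≤ ‖w - ξ‖ := fun w hw => hmin (subset_closure hw)
  set e : ℂ := ⟨σ, τ⟩ with he
  have hdir' : ∀ t : ℝ, 0 ≤ t → t ≤ ‖p - ξ‖ / 2 → ‖p + t * e - ξ‖ ≤ ‖p - ξ‖ - t / 2 :=
    fun t t0 t1 => by rw [add_sub_right_comm]; exact hdir t t0 t1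
  generalize ‖p - ξ‖ = d at d0 hout hdir'
  have hte : ∀ t : ℝ, 0 ≤ t → ‖t * e‖ ≤ 2 * t := fun t ht => norm_dir hσ hτ ht
  have hpD : p ∉ D := fun h => by
    obtain ⟨δ, δ0, hδ⟩ := nhds_basis_closedBall.mem_iff.1 (hD.op.mem_nhds h)
    have t0 : 0 < min (d / 2) (δ / 2) := by positivity
    have h1 := hout _ (hδ (show p + (min (d / 2) (δ / 2) : ℝ) * e ∈ closedBall p δ by
      rw [mem_closedBall, dist_eq_norm, add_sub_cancel_left]
      linarith [hte _ t0.le, min_le_right (d / 2) (δ / 2)]))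
    linarith [hdir' _ t0.le (min_le_left _ _)]
  obtain ⟨s, ⟨s3, s0, s1⟩, -, s2⟩ := (((eventually_all_finset F (l := 𝓝[>] (0 : ℝ))
    (p := fun w s => s ≤ ‖p - w‖ / 5)).2 fun w hw => (ev_le (div_pos (norm_pos_iff.2
      (sub_ne_zero.2 fun h : p = w => (hF w hw).elim (fun c => hpD (h ▸ c)) fun c => c.2 (h ▸ hp)))
      (by norm_num))).mono fun _ h => h.2).and (ev_le (half_pos d0))).and
      (ev_le (c := r / 10) (by positivity)) |>.exists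
  refine ⟨s, s0, C * s ^ (-(1 : ℝ) / 8), fun A => ?_⟩
  obtain ⟨t, t2, t0, t1⟩ := (((tendsto_rpow_neg_nhdsGT_zero (y := -(1 : ℝ) / 8) (by norm_num)
    ).eventually_ge_atTop (A * (C * (1 / 40 : ℝ) ^ (-(1 : ℝ) / 8)) / A₀)).and
    (ev_le s0)).exists
  obtain ⟨z, hz, z1⟩ := Metric.mem_closure_iff.1 hp (t / 100) (by positivity)
  rw [dist_comm, dist_eq_norm] at z1
  refine ⟨z, hz, ?_⟩
  filter_upwards [hlc, hP.1.sub (t / 100) (by positivity), hdg t t0,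
    ev_le (c := t / 1000) (by positivity)] with a h1 h2 h3 ⟨ha, a1⟩
  have y1 := pt_fl_norm ha z
  have c1 := pt_fl_norm ha ξ
  have tri := fun x y w : ℂ => norm_sub_le_norm_sub_add_norm_sub x y w
  have out : ∀ x, ‖pt a x - ξ‖ ≤ d - t / 50 → x ∉ P a := fun x hx c => by
    obtain ⟨w, hw, w1⟩ := h2 x c
    linarith [hout w hw, tri w (pt a x) ξ, norm_sub_rev w (pt a x)]
  have cn : ∀ x, ‖pt a x - ξ‖ ≤ d - t / 25 → Cn (P a) (fl a ξ) x := fun x hx =>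
    cn_star (a := a) (ρ := d - t / 25 + 2 * a)
      (fun x hx => out x (by linarith [tri (pt a x) (pt a (fl a ξ)) ξ])) _ x rfl
      (by linarith [tri (pt a x) ξ (pt a (fl a ξ)), norm_sub_rev ξ (pt a (fl a ξ))])
  have y2 : ‖pt a (fl a z) - p‖ ≤ 2 * a + t / 100 := by linarith [tri (pt a (fl a z)) z p]
  rw [GW_xi]
  generalize fl a z = y at y1 y2 ⊢
  constructor
  · refine low hM hJ hA hC t0 ha a1 hσ hτ h3 (hmag a ha (t / 40) (by positivity)) out cn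
      (by linarith) y2 (hdir' t t0.le (t1.trans s1)) t2
  · have n1 := ceil_bd ha s0.le
    have hB : ∀ x ∈ boxAt y ⌈s / a⌉₊, ‖pt a x - p‖ ≤ 3 * s := fun x hx => by
      linarith [pt_sub_le ha (mem_boxAt.1 hx).1 (mem_boxAt.1 hx).2, tri (pt a x) (pt a y) p]
    refine ⟨boxAt y ⌈s / a⌉₊, mem_boxAt.2 (by simp), fun v hv ⟨x, hx, x1⟩ => ?_,
      fun w hw x hx => ?_, hmag a ha s s0 y⟩
    · have o1 := pt_fl_norm ha (p + s * e)
      have o2 : ‖pt a (fl a (p + s * e)) - ξ‖ ≤ d - t / 25 := by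
        linarith [tri (pt a (fl a (p + s * e))) (p + s * e) ξ, hdir' s s0.le s1]
      refine (cn _ o2).trans (h1 _ (out _ (by linarith)) v hv ?_)
      have o3 := pt_sub_le ha (x := v) (y := x) (m := 1)
        (by push_cast; linarith [abs_nonneg (x.2 - v.2)])
        (by push_cast; linarith [abs_nonneg (x.1 - v.1)])
      have o4 := tri (pt a (fl a (p + s * e))) (p + s * e) p
      rw [add_sub_cancel_left] at o4
      push_cast at o3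
      linarith [tri (pt a (fl a (p + s * e))) p (pt a v), tri p (pt a x) (pt a v), hB x hx,
        norm_sub_rev p (pt a x), hte s s0.le]
    · linarith [s3 w hw, tri p (pt a x) w, hB x hx, norm_sub_rev p (pt a x)]

end Vale.Agent.P144Y.N
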