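import Vale.Agent.P144Y.G.Cov
import Vale.Agent.P144S.K.Lat
import Vale.Agent.P144D.MD.Main

/-!
Lattice estimates for the normalisation in multiply connected domains.
-/

namespace Vale.Agent.P144Y.N

open Finset Filter Topology Vale.Agent.P144 Vale.Agent.P144Z.St
open Vale.Agent.P144.H170 (pt)
open Vale.Agent.P144.H436 (pf gibbs_plus gibbs_le_plus ex_eq_exS exS ev_comp kc_pos boxAt mem_boxAt
  MM_ge MM_anti)

theorem plus_map {β J lam : ℝ} (f : Site ≃ Site) (hf : ∀ u v, dsq (f u) (f v) = dsq u v)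
    (Λ : Finset Site) (F : Config → ℝ) :
    gibbs J lam Vk β (some bcp) (Λ.map f.toEmbedding) (fun σ => F fun x => σ (f x))
      = gibbs J lam Vk β (some bcp) Λ F := by
  have hW := window_win Λ
  have hW' : Window (Λ.map f.toEmbedding) ((win Λ).map f.toEmbedding) := by
    refine ⟨Finset.map_subset_map.2 hW.1, fun u hu v hv => ?_⟩
    rw [Finset.mem_map_equiv] at hu ⊢
    refine hW.2 _ hu _ ?_
    rw [← hf, f.apply_symm_apply, f.apply_symm_apply]
    exact hv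
  rw [gibbs_plus hW, gibbs_plus hW']
  let e : Λ ↪ (Λ.map f.toEmbedding : Finset Site) := ⟨fun i => ⟨f i.1, by
    rw [Finset.mem_map]; exact ⟨i.1, i.2, rfl⟩⟩, fun i j hij => by
      have := congrArg Subtype.val hij
      exact Subtype.ext (f.injective this)⟩
  have hx : ∀ (s' : ↥(Λ.map f.toEmbedding) → Bool) (x : Site),
      exs (Λ.map f.toEmbedding) bcp s' (f x) = exs Λ bcp (fun i => s' (e i)) x := by
    intro s' x
    by_cases h : x ∈ Λ
    · have h' : f x ∈ Λ.map f.toEmbedding := by rw [Finset.mem_map]; exact ⟨x, h, rfl⟩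
      rw [exs_mem h, exs_mem h']
      rfl
    · have h' : f x ∉ Λ.map f.toEmbedding := by
        rw [Finset.mem_map]
        rintro ⟨y, hy, hyx⟩
        exact h (f.injective hyx ▸ hy)
      rw [exs_not_mem h, exs_not_mem h']
      rfl
  have hpf : ∀ u, pf β J lam (Λ.map f.toEmbedding) ((win Λ).map f.toEmbedding) (f u)
      = pf β J lam Λ (win Λ) u := by
    intro u
    unfold pf
    rw [← Finset.map_sdiff, Finset.sum_map]
    simp only [Equiv.coe_toEmbedding, cpl, hf]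
  have hex : ∀ s', ex (KK β J lam (Λ.map f.toEmbedding))
      (fun i => pf β J lam (Λ.map f.toEmbedding) ((win Λ).map f.toEmbedding) i) s'
      = ex (KK β J lam Λ) (fun i => pf β J lam Λ (win Λ) i) (fun i => s' (e i)) := by
    intro s'
    rw [ex_eq_exS β J lam _ (pf β J lam (Λ.map f.toEmbedding) ((win Λ).map f.toEmbedding))
        (σ := exs _ bcp s') (fun i => exs_mem i.2),
      ex_eq_exS β J lam _ (pf β J lam Λ (win Λ)) (σ := exs _ bcp (fun i => s' (e i)))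
        (fun i => exs_mem i.2)]
    unfold exS
    simp only [Finset.sum_map, Equiv.coe_toEmbedding, hx, cpl, hf, hpf]
  rw [← ev_comp e hex]
  simp only [hx]

theorem exists_big (Λ : Finset Site) : ∃ M : ℕ, Λ ⊆ fb M ∧ Λ ⊆ P144.box M := by
  obtain ⟨M, h⟩ := P144S.K.exists_fb Λ
  refine ⟨M, h, fun x hx => ?_⟩
  have := mem_fb.1 (h hx)
  rw [P144.mem_box]
  omega

theorem anti_ge (Λ : Finset Site) (y : Site) {k : ℕ} (hk : 1 ≤ k) :
    Dg k ≤ H436.MM Λ (y ::ₘ (y.1 + k, y.2 - k) ::ₘ 0) := by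
  let f : Site ≃ Site := ⟨fun x => (x.1, -x.2), fun x => (x.1, -x.2), fun x => by simp,
    fun x => by simp⟩
  have hf : ∀ u v, dsq (f u) (f v) = dsq u v := fun u v => by
    simp only [dsq, f, Equiv.coe_fn_mk]
    ring
  obtain ⟨M, h1, h2⟩ := exists_big (Λ ∪ {y, (y.1 + k, y.2 - k)})
  have ne : y ≠ (y.1 + k, y.2 - k) := fun h => by
    have := congrArg Prod.fst h
    simp only at this
    omega
  have a1 := MM_ge (P144.box (M + 1)) (f y) hk
  rw [← plus_two one_pos, ← gibbs_V0 1 _ Vk, ← plus_map f hf] at a1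
  have a2 := gibbs_le_plus (div_pos kc_pos one_pos).le zero_le_one (le_refl (0 : ℝ)) (some bcp)
    (D := fb M) (Λ := (fb (M + 1)).map f.toEmbedding) (fun x hx => by
      rw [Finset.mem_map_equiv, mem_fb]
      have := mem_fb.1 hx
      show (_ ≤ x.1 ∧ x.1 ≤ _) ∧ _ ≤ -x.2 ∧ -x.2 ≤ _
      push_cast
      omega) (subset_union_right.trans h1)
  simp only [prod_pair ne] at a2
  rw [gibbs_V0 1 _ Vk _ (fb M), plus_two one_pos] at a2
  have e1 : f (f y) = y := f.left_inv y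
  have e2 : f (f y + ((k : ℤ), (k : ℤ))) = (y.1 + k, y.2 - k) :=
    Prod.ext rfl (by show -(-y.2 + k) = y.2 - k; ring)
  simp only [e1, e2] at a1
  exact (a1.trans a2).trans (MM_anti (subset_union_left.trans h2) _)

theorem diag_ge (Λ : Finset Site) (y : Site) {k : ℕ} (hk : 1 ≤ k) {s t : ℤ} (hs : s = 1 ∨ s = -1)
    (ht : t = 1 ∨ t = -1) : Dg k ≤ H436.MM Λ ((y.1 + s * k, y.2 + t * k) ::ₘ y ::ₘ 0) := by
  rcases hs with rfl | rfl <;> rcases ht with rfl | rfl
  · rw [Multiset.cons_swap, one_mul]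
    exact MM_ge Λ y hk
  · rw [Multiset.cons_swap, one_mul, neg_one_mul]
    exact anti_ge Λ y hk
  · have := anti_ge Λ (y.1 + -1 * k, y.2 + 1 * k) hk
    rwa [show (((y.1 + -1 * k, y.2 + 1 * k) : Site).1 + k,
      ((y.1 + -1 * k, y.2 + 1 * k) : Site).2 - k) = y from Prod.ext (by simp) (by simp)] at this
  · have := MM_ge Λ (y.1 + -1 * k, y.2 + -1 * k) hk
    rwa [show ((y.1 + -1 * k, y.2 + -1 * k) : Site) + ((k : ℤ), (k : ℤ)) = y from
      Prod.ext (by simp) (by simp)] at this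

theorem MM_le_mag {J : ℝ} (hJ : 0 < J) {P B : Finset Site} (h : B ⊆ P) {y : Site} (hy : y ∈ B)
    {R : Multiset Site} (hR : ∀ x ∈ R, x ∉ B) : MM P (y ::ₘ R) ≤ mag J B y := by
  obtain ⟨M, hP⟩ := P144S.K.exists_fb P
  have h2 := G.EW_dlr J hP h (fun σ => sp (σ y)) (fun σ => (R.map fun x => sp (σ x)).prod)
    fun σ T => by rw [Multiset.map_congr rfl fun x hx => by rw [G.ext_out _ _ (hR x hx)]]
  have h3 := (G.EW_nonneg J P M fun σ _ => ?_).trans_eq (G.EW_lin J P M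
    (fun σ => G.cm J B y σ * (R.map fun x => sp (σ x)).prod) (fun _ => 0) (fun _ => 0) (-1) 0 0
    (mag J B y))
  · rw [G.MM_EW hJ hP]
    simp only [Multiset.map_cons, Multiset.prod_cons]
    rw [h2]
    unfold G.cm at h3
    linarith
  · have a1 : |(R.map fun x => sp (σ x)).prod| ≤ 1 := by
      refine Multiset.prod_induction (fun t : ℝ => |t| ≤ 1) _ (fun a b ha hb => ?_) (by simp)
        fun y hy => ?_
      · rw [abs_mul]
        exact mul_le_one₀ ha (abs_nonneg _) hb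
      · obtain ⟨x, -, rfl⟩ := Multiset.mem_map.1 hy
        exact (abs_sp _).le
    have a2 := mul_le_mul (G.cm_abs hJ hy σ) a1 (abs_nonneg _) (mag_nonneg hJ B y)
    rw [← abs_mul] at a2
    linarith [le_abs_self (G.cm J B y σ * (R.map fun x => sp (σ x)).prod)]

/-- A box in the complement. -/
theorem split (hM : SMM) {J : ℝ} (hJ : 0 < J) {P Q : Finset Site} (hd : Disjoint (Vx P) (Vx Q))
    {y : Site} (hy : y ∈ Q) {R : Multiset Site} (hR : ∀ x ∈ R, x ∉ Q) :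
    H436.MM (Vx (P ∪ Q)) (y ::ₘ R) ≤ MM P (y ::ₘ R) * mag J Q y :=
  ((hM.ind _ _).trans (hM.two _ P Q _ subset_union_left subset_union_right hd)).trans
    (mul_le_mul_of_nonneg_left (MM_le_mag hJ Subset.rfl hy hR) (hM.pos _ _).le)

theorem pt_sq (a : ℝ) (x c : Site) : ‖pt a x - pt a c‖ ^ 2 = a ^ 2 * (dsq x c : ℝ) := by
  rw [Complex.sq_norm, Complex.normSq_apply]
  simp only [pt, dsq, Complex.sub_re, Complex.sub_im]
  push_cast
  ring

/-- A disc in the complement is connected. -/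
theorem cn_star {P : Finset Site} {a ρ : ℝ} {c : Site}
    (h : ∀ x, ‖pt a x - pt a c‖ ≤ ρ → x ∉ P) : ∀ (n : ℕ) (x : Site),
    (x.1 - c.1).natAbs + (x.2 - c.2).natAbs = n → ‖pt a x - pt a c‖ ≤ ρ → Cn P c x := by
  intro n
  induction n with
  | zero =>
    intro x e _
    rw [show x = c from Prod.ext (by omega) (by omega)]
    exact .refl
  | succ n ih =>
    intro x e hx
    have key : ∀ y : Site, (y.1 - c.1).natAbs + (y.2 - c.2).natAbs = n → dsq y c ≤ dsq x c →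
        |y.1 - x.1| + |y.2 - x.2| = 1 → Cn P c x := fun y e1 e2 e3 => by
      refine Relation.ReflTransGen.tail (ih y e1 (le_trans ?_ hx)) ⟨h x hx, e3⟩
      refine abs_le_of_sq_le_sq' ?_ (norm_nonneg _) |>.2
      rw [pt_sq, pt_sq]
      exact mul_le_mul_of_nonneg_left (Int.cast_le.2 e2) (sq_nonneg a)
    rcases lt_trichotomy x.1 c.1 with h1 | h1 | h1
    · exact key (x.1 + 1, x.2) (by simp only; omega) (by simp only [dsq]; nlinarith) (by simp)
    · rcases lt_trichotomy x.2 c.2 with h2 | h2 | h2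
      · exact key (x.1, x.2 + 1) (by simp only; omega) (by simp only [dsq]; nlinarith) (by simp)
      · omega
      · exact key (x.1, x.2 - 1) (by simp only; omega) (by simp only [dsq]; nlinarith) (by simp)
    · exact key (x.1 - 1, x.2) (by simp only; omega) (by simp only [dsq]; nlinarith) (by simp)

theorem ceil_bd {a s : ℝ} (ha : 0 < a) (hs : 0 ≤ s) :
    s ≤ a * (⌈s / a⌉₊ : ℝ) ∧ a * (⌈s / a⌉₊ : ℝ) ≤ s + a := by
  have h1 := Nat.le_ceil (s / a)
  have h2 := (Nat.ceil_lt_add_one (show 0 ≤ s / a by positivity)).le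
  rw [div_le_iff₀ ha] at h1
  rw [← sub_le_iff_le_add, le_div_iff₀ ha] at h2
  constructor <;> linarith

/-- The magnetisation in a box of size `s`. -/
theorem mag_sc {J : ℝ} (hJ : 0 < J) : ∃ C > (0 : ℝ), ∀ a > (0 : ℝ), ∀ s > (0 : ℝ), ∀ x,
    a ^ (-(1 : ℝ) / 8) * mag J (boxAt x ⌈s / a⌉₊) x ≤ C * s ^ (-(1 : ℝ) / 8) := by
  obtain ⟨C, hC, h⟩ := P144Z.MD.mag_decay hJ
  refine ⟨C, hC, fun a ha s hs x => ?_⟩
  have h1 := h _ (Nat.one_le_iff_ne_zero.2 (Nat.ceil_pos.2 (div_pos hs ha)).ne')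
  have h2 : (a * (⌈s / a⌉₊ : ℝ)) ^ (-(1 : ℝ) / 8) ≤ s ^ (-(1 : ℝ) / 8) :=
    Real.rpow_le_rpow_of_nonpos hs (ceil_bd ha hs.le).1 (by norm_num)
  rw [Real.mul_rpow ha.le (Nat.cast_nonneg _)] at h2
  rw [mag_boxAt]
  rw [show (-(1 / 8) : ℝ) = -1 / 8 by ring] at h1
  have h3 := mul_le_mul_of_nonneg_left h1 (Real.rpow_nonneg ha.le (-(1 : ℝ) / 8))
  have h4 := mul_le_mul_of_nonneg_left h2 hC.le
  linarith

/-- The two-point function at the distance `t`. -/
theorem dg_sc : ∃ A > (0 : ℝ), ∀ t > (0 : ℝ), ∀ᶠ a in 𝓝[>] (0 : ℝ),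
    A * (t ^ (-(1 : ℝ) / 8)) ^ 2 ≤ (a ^ (-(1 : ℝ) / 8)) ^ 2 * Dg ⌈t / a⌉₊ := by
  obtain ⟨A, hA0, hA⟩ := Dg_asymp
  refine ⟨A / 2 * ((2 : ℝ) ^ (-(1 : ℝ) / 8)) ^ 2, by positivity, fun t ht => ?_⟩
  have hk : Tendsto (fun a : ℝ => ⌈t / a⌉₊) (𝓝[>] 0) atTop :=
    tendsto_nat_ceil_atTop.comp (f := fun a : ℝ => t * a⁻¹)
      (tendsto_inv_nhdsGT_zero.const_mul_atTop ht)
  filter_upwards [(hA.comp hk).eventually_const_lt (half_lt_self hA0), Ioc_mem_nhdsGT ht]
    with a h1 h2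
  have ha : 0 < a := h2.1
  have h3 := ceil_bd ha ht.le
  simp only [Function.comp] at h1
  generalize ⌈t / a⌉₊ = k at h1 h3
  have k0 : (0 : ℝ) < k := (mul_pos_iff_of_pos_left ha).1 (ht.trans_le h3.1)
  have h7 : (2 * t) ^ (-(1 : ℝ) / 8) ≤ (a * k) ^ (-(1 : ℝ) / 8) :=
    Real.rpow_le_rpow_of_nonpos (by positivity) (by linarith [h2.2]) (by norm_num)
  rw [Real.mul_rpow ha.le k0.le, Real.mul_rpow zero_le_two ht.le] at h7
  have h8 : (k : ℝ) ^ (1 / 4 : ℝ) * ((k : ℝ) ^ (-(1 : ℝ) / 8)) ^ 2 = 1 := by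
    rw [sq, ← Real.rpow_add k0, ← Real.rpow_add k0]
    norm_num
  have h9 := mul_le_mul h1.le (pow_le_pow_left₀ (by positivity) h7 2) (by positivity)
    ((half_pos hA0).trans h1).le
  rw [mul_pow, mul_pow] at h9
  linear_combination h9 + (a ^ (-(1 : ℝ) / 8)) ^ 2 * Dg k * h8

end Vale.Agent.P144Y.N
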